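import Vale.Agent.P361.Main

/-! # P361: the spontaneous magnetization is at most the spin-wave value -/

namespace Vale.Agent.Results.P361.BlochBound

open Vale.Agent.P361 Filter Topology

/-- For every spin `S = n / 2` the limit pressure `p` of the free-boundary cubes exists and is
convex, and its right derivative `m` at zero field obeys
`β ^ (3/2) (S - m) ≥ ζ(3/2) / (8 π^(3/2) S^(3/2)) - ε` for all large `β`. -/
theorem result (n : ℕ) (hn : 1 ≤ n) :
    (spin1 n * spin2 n - spin2 n * spin1 n = Complex.I • spin3 n ∧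
      spin2 n * spin3 n - spin3 n * spin2 n = Complex.I • spin1 n ∧
      spin3 n * spin1 n - spin1 n * spin3 n = Complex.I • spin2 n ∧
      spin1 n * spin1 n + spin2 n * spin2 n + spin3 n * spin3 n
        = (((n : ℂ) / 2) * ((n : ℂ) / 2 + 1)) • (1 : Matrix (Fin (n + 1)) (Fin (n + 1)) ℂ)) ∧
    ∀ ε : ℝ, 0 < ε → ∃ β0 : ℝ, 0 < β0 ∧ ∀ β, β0 ≤ β → ∃ p : ℝ → ℝ,
      (∀ h, Tendsto (fun N => pressure n (cube N) β h) atTop (𝓝 (p h))) ∧
      ConvexOn ℝ Set.univ p ∧ ∃ m, HasDerivWithinAt p m (Set.Ici 0) 0 ∧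
        blochConst ((n : ℝ) / 2) - ε ≤ β ^ (3 / 2 : ℝ) * ((n : ℝ) / 2 - m) :=
  ⟨spin_relations n, fun ε hε => bloch_upper n hn ε hε⟩

end Vale.Agent.Results.P361.BlochBound
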